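import Vale.Agent.Lib.P050.Kernel

open MeasureTheory Finset
open scoped BigOperators

namespace Vale.Agent.Results.P050.A_kernel

/-- Local Sidorenko inequality for kernels on any probability space (for instance `[0,1]` with
Lebesgue measure), with `L^∞` radius depending only on the maximum degree of the bipartite
graph `H`: if `∫ W = p > 0` and `|W - p| ≤ p / (2001 Δ)` almost everywhere then
`t(H, W) ≥ p ^ |E(H)|`. -/
theorem result {V Ω : Type*} [Fintype V] [DecidableEq V] [MeasurableSpace Ω]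
    (μ : Measure Ω) [IsProbabilityMeasure μ]
    (H : SimpleGraph V) [DecidableRel H.Adj] (hbip : H.Colorable 2)
    (Δ : ℕ) (hΔ : 1 ≤ Δ) (hdeg : ∀ v, H.degree v ≤ Δ)
    (W : Sym2 Ω → ℝ) (hW : Measurable (fun q : Ω × Ω => W s(q.1, q.2)))
    (p : ℝ) (hp : 0 < p)
    (hmean : ∫ q, W s(q.1, q.2) ∂(μ.prod μ) = p)
    (hclose : ∀ᵐ q ∂(μ.prod μ), |W s(q.1, q.2) - p| ≤ p / (2001 * (Δ : ℝ))) :
    p ^ H.edgeFinset.card ≤
      ∫ x : V → Ω, ∏ e ∈ H.edgeFinset, W (e.map x) ∂(Measure.pi fun _ => μ) :=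
  Vale.Agent.Lib.P050.kernel_local μ H hbip Δ hΔ hdeg W hW p hp hmean hclose

end Vale.Agent.Results.P050.A_kernel
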