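import Vale.Agent.Lib.P050.Final

open Finset Vale.Agent.Lib.P050
open scoped BigOperators

namespace Vale.Agent.Results.P050.A_main

/-- Local Sidorenko inequality with radius depending only on the maximum degree of `H`:
if `H` is bipartite with maximum degree at most `Δ` and `W` is a symmetric weight function on
a finite set `Ω` with mean `p > 0` and `|W - p| ≤ p / (1000 Δ)` everywhere, then
the homomorphism sum of `H` in `W` is at least `|Ω| ^ |V(H)| * p ^ |E(H)|`. -/
theorem result {V Ω : Type*} [Fintype V] [DecidableEq V] [Fintype Ω] [DecidableEq Ω] [Nonempty Ω]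
    (H : SimpleGraph V) [DecidableRel H.Adj] (hbip : H.Colorable 2)
    (Δ : ℕ) (hΔ : 1 ≤ Δ) (hdeg : ∀ v, H.degree v ≤ Δ)
    (W : Sym2 Ω → ℝ) (p : ℝ) (hp : 0 < p)
    (hmean : ∑ a : Ω, ∑ b : Ω, W s(a, b) = (Fintype.card Ω : ℝ) ^ 2 * p)
    (hclose : ∀ e, |W e - p| ≤ p / (1000 * (Δ : ℝ))) :
    (Fintype.card Ω : ℝ) ^ Fintype.card V * p ^ H.edgeFinset.card ≤
      ∑ x : V → Ω, ∏ e ∈ H.edgeFinset, W (e.map x) := by
  classical
  have hΔ' : (0 : ℝ) < Δ := by exact_mod_cast hΔ
  have hNpos : (0 : ℝ) < Fintype.card Ω := by exact_mod_cast Fintype.card_pos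
  set f : Sym2 Ω → ℝ := fun e => W e / p - 1 with hf
  obtain ⟨C⟩ := hbip
  set col : V → Bool := fun v => decide (C v = 0) with hcol
  obtain ⟨hε1000, hε0⟩ := eps_facts hΔ
  have hyp : Hyp f H.edgeFinset Δ col ((1 : ℝ) / (1000 * Δ)) := by
    refine ⟨hΔ, hε0, by linarith, ?_, ?_, ?_, ?_, ?_⟩
    · intro e
      have e1 : f e = (W e - p) / p := by
        simp only [hf]; field_simp
      rw [e1, abs_div, abs_of_pos hp, div_le_iff₀ hp]
      refine (hclose e).trans (le_of_eq ?_)
      field_simp
    · simp only [hf]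
      have e2 : ∀ a : Ω, Finset.expect univ (fun b : Ω => W s(a, b) / p - 1) =
          (∑ b : Ω, W s(a, b)) / (Fintype.card Ω * p) - 1 := by
        intro a
        rw [Fintype.expect_eq_sum_div_card, Finset.sum_sub_distrib, Finset.sum_const,
          Finset.card_univ, nsmul_eq_mul, mul_one, ← Finset.sum_div]
        field_simp
      simp only [e2]
      rw [Fintype.expect_eq_sum_div_card, Finset.sum_sub_distrib, Finset.sum_const,
          Finset.card_univ, nsmul_eq_mul, mul_one, ← Finset.sum_div, hmean]
      field_simp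
      ring
    · intro e he
      exact SimpleGraph.not_isDiag_of_mem_edgeSet H (SimpleGraph.mem_edgeFinset.1 he)
    · intro v
      have e3 : (H.edgeFinset.filter (fun h => v ∈ h)) = H.incidenceFinset v := by
        ext e
        simp [SimpleGraph.mem_incidenceFinset, SimpleGraph.incidenceSet]
      refine le_trans (le_of_eq ?_) (hdeg v)
      rw [← SimpleGraph.card_incidenceFinset_eq_degree, ← e3]
    · intro a b hab
      have hadj : H.Adj a b := by simpa using hab
      have hne : C a ≠ C b := C.valid hadj
      simp only [hcol]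
      intro heq
      apply hne
      have h1 := decide_eq_decide.1 heq
      omega
  have hmain := main_f hyp rfl
  unfold ZZ at hmain
  have hEq : ∀ x : V → Ω, ∏ e ∈ H.edgeFinset, (1 + f (e.map x)) =
      (∏ e ∈ H.edgeFinset, W (e.map x)) / p ^ H.edgeFinset.card := by
    intro x
    rw [← Finset.prod_const, ← Finset.prod_div_distrib]
    apply Finset.prod_congr rfl
    intro e _
    simp only [hf]
    ring
  simp only [hEq] at hmain
  rw [Fintype.expect_eq_sum_div_card, ← Finset.sum_div, Fintype.card_fun] at hmain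
  have hpos : (0 : ℝ) < ((Fintype.card Ω ^ Fintype.card V : ℕ) : ℝ) * p ^ H.edgeFinset.card := by
    positivity
  push_cast at hmain hpos
  rw [div_div, one_le_div (by positivity)] at hmain
  linarith

end Vale.Agent.Results.P050.A_main
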